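import Vale.Agent.P241.H40.ClaimT

/-!
# P241, block T1: induction from a subgroup, in polar coordinates of the star of `G/B`

* `starQ B` : the star of `G/B` with the point `0`.
* `exists_starPM` : a `B`-map on `HH × Y` which is a `G`-map on `0 × Y` extends to a `G`-map on
  `star (G/B) × Y`.
* `Fact.of_res` : nullity over the subgroup `B` gives a factorisation through `star (G/B)`.
-/

open OnePoint Set Filter Topology CategoryTheory MonoidalCategory
open Vale.Agent.P251.St (Space Map)
open Vale.Agent.P251.G Vale.Agent.P251.G.LC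
open Vale.Agent.P241.St Vale.Agent.P241.H808 Vale.Agent.P241.H733

namespace Vale.Agent.P241.H83

variable {G : Type} [Group G]

/-- restriction of a space with fixed point along a homomorphism -/
def PB.res {H : Type} [Group H] (φ : H →* G) (β : PB G) : PB H where
  B := β.B.res φ
  b := β.b
  fix h := β.fix (φ h)

/-- the star of `G/B`, with the point `0` -/
def starQ (B : Subgroup G) [Finite (G ⧸ B)] : PB G where
  B := ofType G (H733.Star (G ⧸ B))
  b := (0 : H733.Star (G ⧸ B))
  fix g := H733.Star.smul_zero g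

section act

variable (X : GSpace G)

theorem act_one (x : OnePoint X.carrier) : X.smul 1 x = x := by
  induction x using OnePoint.rec with
  | infty => rfl
  | coe x => rw [smul_coe, one_smul]

theorem act_act (g h : G) (x : OnePoint X.carrier) : X.smul g (X.smul h x) = X.smul (g * h) x := by
  induction x using OnePoint.rec with
  | infty => rfl
  | coe x => rw [smul_coe, smul_coe, smul_coe, mul_smul]

theorem continuous_act (g : G) : Continuous (X.smul g) :=
  (Homeomorph.smul g : X.carrier ≃ₜ X.carrier).onePointCongr.continuous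

end act

section star

variable {I : Type} [Fintype I]

theorem isCompact_nrm_le (c : ℝ) : IsCompact {t : H733.Star I | t.nrm ≤ c} := by
  have h : IsCompact {x : I → ℝ | x ∈ H733.starSet I ∧ ∑ i, x i ≤ c} := by
    refine Metric.isCompact_of_isClosed_isBounded ?_ ?_
    · exact (H733.Star.isClosed_starSet (I := I)).inter
        (isClosed_le (continuous_finsetSum _ fun i _ => continuous_apply i) continuous_const)
    · refine (Metric.isBounded_Icc (0 : I → ℝ) (fun _ => c)).subset ?_
      rintro x ⟨hx, hc⟩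
      refine ⟨fun i => hx.1 i, fun i => ?_⟩
      exact (Finset.single_le_sum (fun j _ => hx.1 j) (Finset.mem_univ i)).trans hc
  change IsCompact {t : H733.starSet I | ∑ i, t.1 i ≤ c}
  rw [Subtype.isCompact_iff]
  convert h using 1
  ext x
  simp [and_comm]

/-- the norm with values in the half line -/
noncomputable def nn (t : H733.Star I) : NNReal := ⟨t.nrm, t.nrm_nonneg⟩

theorem continuous_nn : Continuous (nn : H733.Star I → NNReal) := H733.Star.continuous_nrm.subtype_mk _

theorem tendsto_nn : Tendsto (nn : H733.Star I → NNReal) (cocompact (H733.Star I)) (cocompact NNReal) := by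
  intro S hS
  obtain ⟨K, hK, hKS⟩ := mem_cocompact.1 hS
  obtain ⟨c, hc⟩ := hK.bddAbove
  refine mem_cocompact.2 ⟨{t | t.nrm ≤ c}, isCompact_nrm_le _, ?_⟩
  intro t ht
  refine hKS fun hm => ht ?_
  have := hc hm
  exact_mod_cast this

theorem nn_zero : nn (0 : H733.Star I) = 0 := by
  ext; exact H733.Star.nrm_zero

theorem nn_smul {G : Type*} [Group G] [MulAction G I] (g : G) (t : H733.Star I) :
    nn (g • t) = nn t := by
  ext; exact H733.Star.nrm_smul g t

end star

section induce

variable (B : Subgroup G) {Y Z : GSpace G}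

/-- the piece of `(star (G/B) × Y)⁺` over the ray of `i` -/
def piece (Y : GSpace G) (i : G ⧸ B) : Set (OnePoint (H733.Star (G ⧸ B) × Y.carrier)) :=
  ((↑) '' {z : H733.Star (G ⧸ B) × Y.carrier | ∃ j, j ≠ i ∧ z.1 j ≠ 0})ᶜ

variable {B}

theorem isClosed_piece (i : G ⧸ B) : IsClosed (piece B Y i) := by
  refine (OnePoint.isOpenEmbedding_coe.isOpenMap _ ?_).isClosed_compl
  have : {z : H733.Star (G ⧸ B) × Y.carrier | ∃ j, j ≠ i ∧ z.1 j ≠ 0} =
      ⋃ j, {z : H733.Star (G ⧸ B) × Y.carrier | j ≠ i ∧ z.1 j ≠ 0} := by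
    ext s; simp
  rw [this]
  refine isOpen_iUnion fun j => ?_
  by_cases hj : j = i
  · simp [hj]
  · simp only [ne_eq, hj, not_false_eq_true, true_and]
    exact isOpen_ne_fun ((H733.Star.continuous_eval j).comp continuous_fst) continuous_const

theorem infty_mem_piece (i : G ⧸ B) : ∞ ∈ piece B Y i := by
  simp [piece]

theorem coe_mem_piece {i : G ⧸ B} {t : H733.Star (G ⧸ B)} {y : Y.carrier} :
    OnePoint.some (t, y) ∈ piece B Y i ↔ ∀ j, j ≠ i → t j = 0 := by
  constructor
  · intro h j hj
    by_contra hs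
    exact h ⟨(t, y), ⟨j, hj, hs⟩, rfl⟩
  · rintro h ⟨z, ⟨j, hj, hs⟩, hz⟩
    obtain rfl := OnePoint.coe_injective hz
    exact hs (h j hj)

theorem exists_piece (z : OnePoint (H733.Star (G ⧸ B) × Y.carrier)) : ∃ g : G, z ∈ piece B Y g := by
  induction z using OnePoint.rec with
  | infty => exact ⟨1, infty_mem_piece _⟩
  | coe z =>
    obtain ⟨t, y⟩ := z
    by_cases hs : ∃ i, t i ≠ 0
    · obtain ⟨i, hi⟩ := hs
      obtain ⟨g, rfl⟩ := QuotientGroup.mk_surjective i
      refine ⟨g, coe_mem_piece.2 fun j hj => ?_⟩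
      by_contra hsj
      exact hj (t.eq_of_ne_zero hsj hi)
    · push Not at hs
      exact ⟨1, coe_mem_piece.2 fun j _ => hs j⟩

variable [Fintype (G ⧸ B)]

/-- `(t, y) ↦ (|t|, g⁻¹ y)` -/
noncomputable def rot (Y : GSpace G) (g : G) :
    LC.of (H733.Star (G ⧸ B) × Y.carrier) ⟶ LC.of (NNReal × Y.carrier) :=
  tensorHom' (X := LC.of (H733.Star (G ⧸ B))) (Y := LC.of NNReal) (Z := LC.of Y.carrier)
    (W := LC.of Y.carrier)
    (LC.ofProper (X := LC.of (H733.Star (G ⧸ B))) (Y := LC.of NNReal) nn continuous_nn tendsto_nn)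
    (LC.ofProper (X := LC.of Y.carrier) (Y := LC.of Y.carrier) (fun y => g⁻¹ • y)
      (continuous_const_smul g⁻¹) (Homeomorph.smul g⁻¹).isClosedEmbedding.tendsto_cocompact)

theorem rot_coe (g : G) (t : H733.Star (G ⧸ B)) (y : Y.carrier) :
    app (rot Y g) (OnePoint.some (t, y)) = OnePoint.some (nn t, g⁻¹ • y) := rfl

variable {ψ : LC.of (NNReal × Y.carrier) ⟶ LC.of Z.carrier}

/-- the value on the piece of `gB` -/
noncomputable def pval (ψ : LC.of (NNReal × Y.carrier) ⟶ LC.of Z.carrier) (g : G)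
    (z : OnePoint (H733.Star (G ⧸ B) × Y.carrier)) : OnePoint Z.carrier :=
  Z.smul g (app ψ (app (rot Y g) z))

theorem continuous_pval (g : G) : Continuous (pval (B := B) ψ g) :=
  (continuous_act Z g).comp ((continuous_app ψ).comp (continuous_app (rot Y g)))

theorem pval_infty (g : G) : pval (B := B) ψ g ∞ = ∞ := by
  change Z.smul g (app ψ (app (rot Y g) ∞)) = ∞
  rw [app_infty, app_infty, smul_infty]

theorem pval_coe (g : G) (t : H733.Star (G ⧸ B)) (y : Y.carrier) :
    pval ψ g (OnePoint.some (t, y)) = Z.smul g (app ψ (OnePoint.some (nn t, g⁻¹ • y))) := rfl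

theorem pval_congr (hB : ∀ b ∈ B, ∀ (r : NNReal) (y : Y.carrier),
      app ψ (OnePoint.some (r, b • y)) = Z.smul b (app ψ (OnePoint.some (r, y)))) {g g' : G}
    (hg : (g : G ⧸ B) = g') (z : OnePoint (H733.Star (G ⧸ B) × Y.carrier)) :
    pval ψ g z = pval ψ g' z := by
  induction z using OnePoint.rec with
  | infty => rw [pval_infty, pval_infty]
  | coe z =>
    obtain ⟨t, y⟩ := z
    have hb : g⁻¹ * g' ∈ B := QuotientGroup.eq.1 hg
    rw [pval_coe, pval_coe]
    have h1 : g⁻¹ • y = (g⁻¹ * g') • g'⁻¹ • y := by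
      rw [smul_smul, mul_assoc, mul_inv_cancel, mul_one]
    rw [h1, hB _ hb, act_act, mul_inv_cancel_left]

variable {f : Y.carrier → OnePoint Z.carrier}

theorem pval_eq_of_mem (hB : ∀ b ∈ B, ∀ (r : NNReal) (y : Y.carrier),
      app ψ (OnePoint.some (r, b • y)) = Z.smul b (app ψ (OnePoint.some (r, y))))
    (h0 : ∀ y, app ψ (OnePoint.some ((0 : NNReal), y)) = f y)
    (hf : ∀ (g : G) y, f (g • y) = Z.smul g (f y))
    {g g' : G} {z : OnePoint (H733.Star (G ⧸ B) × Y.carrier)} (hg : z ∈ piece B Y g)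
    (hg' : z ∈ piece B Y g') : pval ψ g z = pval ψ g' z := by
  by_cases hgg : (g : G ⧸ B) = g'
  · exact pval_congr hB hgg z
  induction z using OnePoint.rec with
  | infty => rw [pval_infty, pval_infty]
  | coe z =>
    obtain ⟨t, y⟩ := z
    have ht : t = 0 := H733.Star.eq_zero_iff.2 fun j => by
      by_cases hj : j = (g : G ⧸ B)
      · exact coe_mem_piece.1 hg' j (by rw [hj]; exact hgg)
      · exact coe_mem_piece.1 hg j hj
    subst ht
    rw [pval_coe, pval_coe, nn_zero, h0, h0, hf, hf, act_act, act_act, mul_inv_cancel,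
      mul_inv_cancel]

/-- **Induction from a subgroup.** -/
theorem exists_starPM (ψ : LC.of (NNReal × Y.carrier) ⟶ LC.of Z.carrier)
    (f : Y.carrier → OnePoint Z.carrier)
    (hB : ∀ b ∈ B, ∀ (r : NNReal) (y : Y.carrier),
      app ψ (OnePoint.some (r, b • y)) = Z.smul b (app ψ (OnePoint.some (r, y))))
    (h0 : ∀ y, app ψ (OnePoint.some ((0 : NNReal), y)) = f y)
    (hf : ∀ (g : G) y, f (g • y) = Z.smul g (f y)) :
    ∃ Ψ : PM ((starQ B).B.prod Y) Z, ∀ y, Ψ.at' (OnePoint.some (pr (0 : H733.Star (G ⧸ B)) y)) = f y := by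
  choose k hk using fun z : OnePoint (H733.Star (G ⧸ B) × Y.carrier) => exists_piece z
  have hF : ∀ (g : G) (z : OnePoint (H733.Star (G ⧸ B) × Y.carrier)), z ∈ piece B Y g →
      pval ψ (k z) z = pval ψ g z := fun g z hz => pval_eq_of_mem hB h0 hf (hk z) hz
  have hcont : Continuous fun z : OnePoint (H733.Star (G ⧸ B) × Y.carrier) => pval ψ (k z) z := by
    refine LocallyFinite.continuous (f := fun i : G ⧸ B => piece B Y i)
      (locallyFinite_of_finite _) ?_ (fun i => isClosed_piece i) ?_
    · rw [Set.eq_univ_iff_forall]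
      intro z
      exact Set.mem_iUnion.2 ⟨_, hk z⟩
    · intro i
      obtain ⟨g, rfl⟩ := QuotientGroup.mk_surjective i
      exact (continuous_pval (ψ := ψ) g).continuousOn.congr fun z hz => hF g z hz
  have key : ∀ (g : G) (t : H733.Star (G ⧸ B)) (y : Y.carrier),
      pval ψ (k (OnePoint.some (g • t, g • y))) (OnePoint.some (g • t, g • y)) =
        Z.smul g (pval ψ (k (OnePoint.some (t, y))) (OnePoint.some (t, y))) := by
    intro g t y
    have h1 := hk (OnePoint.some (t, y))
    have h2 : OnePoint.some (g • t, g • y) ∈ piece B Y (g * k (OnePoint.some (t, y)) : G) := by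
      refine coe_mem_piece.2 fun j hj => ?_
      refine coe_mem_piece.1 h1 (g⁻¹ • j) fun hc => hj ?_
      rw [← smul_inv_smul g j, hc]
      rfl
    rw [hF _ _ h2, pval_coe, pval_coe, mul_inv_rev, mul_smul, inv_smul_smul, act_act, nn_smul]
  refine ⟨⟨⟨⟨fun z => pval ψ (k z) z, hcont⟩, pval_infty _⟩, fun g x => key g x.1 x.2⟩, ?_⟩
  intro y
  change pval ψ (k (OnePoint.some ((0 : H733.Star (G ⧸ B)), y)))
    (OnePoint.some ((0 : H733.Star (G ⧸ B)), y)) = f y
  rw [pval_coe, nn_zero, h0, hf, act_act, mul_inv_cancel, act_one]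

end induce

/-! ### Nullity over a subgroup -/

variable {W : Type} [Group W] [Finite W] {V : TClass}

/-- nullity over the subgroup `B` gives a factorisation through `star (W/B)` -/
theorem Fact.of_res (B : Subgroup W) {E : GSpace W} {be : PB W} {X : GSpace W}
    (h : N V (E.res B.subtype) (H40.resPB B.subtype be) (X.res B.subtype)) :
    Fact V E (starQ B) be X := by
  obtain ⟨A, C, v, hv, ψ, hψ⟩ := h
  let _ : Fintype (W ⧸ B) := Fintype.ofFinite _
  let Y : GSpace W := E.prod (X.prod (tr W A))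
  let Z : GSpace W := be.B.prod (X.prod (tr W C))
  let s : PM ((tr B HH).prod (Y.res B.subtype))
      ((E.res B.subtype).prod ((hh B).B.prod ((X.res B.subtype).prod (tr B A)))) :=
    PM.emb (fun z : NNReal × (E.carrier × (X.carrier × A.carrier)) => (z.2.1, (z.1, z.2.2)))
      (fun w : E.carrier × (NNReal × (X.carrier × A.carrier)) => (w.2.1, (w.1, w.2.2)))
      (continuous_snd.fst.prodMk (continuous_fst.prodMk continuous_snd.snd))
      (continuous_snd.fst.prodMk (continuous_fst.prodMk continuous_snd.snd))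
      (fun _ => rfl) (fun _ _ => rfl)
  let f : Y.carrier → OnePoint Z.carrier := fun z =>
    sm (X := be.B) (Y := X.prod (tr W C)) (OnePoint.some be.b)
      (sm (X := X) (Y := tr W C) (OnePoint.some (p1 (p2 z)))
        (vat v (OnePoint.some (p2 (p2 z)))))
  have hB : ∀ b ∈ B, ∀ (r : NNReal) (y : Y.carrier),
      app (s.comp ψ).hom (OnePoint.some (r, b • y)) =
        Z.smul b (app (s.comp ψ).hom (OnePoint.some (r, y))) :=
    fun b hb r y => (s.comp ψ).eqv ⟨b, hb⟩ (r, y)
  have h0 : ∀ y : Y.carrier, app (s.comp ψ).hom (OnePoint.some ((0 : NNReal), y)) = f y :=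
    fun y => hψ y.1 y.2.1 y.2.2
  have hf : ∀ (g : W) (y : Y.carrier), f (g • y) = Z.smul g (f y) := by
    rintro g ⟨e, x, a⟩
    change sm (OnePoint.some be.b) (sm (OnePoint.some (g • x)) (vat v (OnePoint.some a))) =
      Z.smul g (sm (X := be.B) (Y := X.prod (tr W C)) (OnePoint.some be.b)
        (sm (X := X) (Y := tr W C) (OnePoint.some x) (vat v (OnePoint.some a))))
    rw [smul_sm, smul_sm, smul_coe, smul_coe, be.fix, tr_smul]
  obtain ⟨Ψ, hΨ⟩ := exists_starPM (B := B) (Y := Y) (Z := Z) (s.comp ψ).hom f hB h0 hf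
  let q : PM (E.prod ((starQ B).B.prod (X.prod (tr W A)))) ((starQ B).B.prod Y) :=
    PM.emb (fun z => pr (p1 (p2 z)) (pr (p1 z) (p2 (p2 z))))
      (fun w => pr (p1 (p2 w)) (pr (p1 w) (p2 (p2 w)))) (by fun_prop) (by fun_prop)
      (fun _ => rfl) (fun _ _ => rfl)
  exact ⟨A, C, v, hv, q.comp Ψ, fun e x a => hΨ (pr e (pr x a))⟩

/-- helper40's interface -/
theorem induce (V : TClass) : H40.Induce V := by
  intro W _ _ B E be X _ h
  refine (Fact.of_res B h).map_left (γ' := H40.starQ B) (PM.ofProper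
    (X := (H40.starQ B).B) (Y := (starQ B).B)
    (fun z : Fin 1 → H733.Star (W ⧸ B) => z 0) (continuous_apply 0) ?_ fun _ _ => rfl) rfl
  exact (Homeomorph.funUnique (Fin 1) (H733.Star (W ⧸ B))).isClosedEmbedding.tendsto_cocompact

end Vale.Agent.P241.H83
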